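import Vale.Agent.P088.R2.H312.S.Ce
import Vale.Agent.P088.R2.H312.S.Th
import Vale.Agent.P088.R2.H222.LevT
import Vale.Agent.P088.R2.H31.EP.Pack

/-!
# P088, zone RSn: all slot quantities of the model weight, uniformly
-/

open Set Filter
open scoped ContDiff Topology

noncomputable section

namespace Vale.Agent.P088.R2.H312.S

open Vale.Agent.P088.LR Vale.Agent.P088.HY Vale.Agent.P088.R2.H961.GW Vale.Agent.P088.R2.H644
open Vale.Agent.P088.R2.H644.Ch Vale.Agent.P088.R2.H644.Sy Vale.Agent.P088.R2.H644.Ep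
open Vale.Agent.P088.R2.H475
open Vale.Agent.P088.R2.H31.EP (Fu uu chi0)

variable {n : ℕ}

/-- The functions of the model weight. -/
def Fm (Φ S : ℝ → ℝ) : Fu where
  Φ := Φ
  μ := fun _ => 0
  χ := chi0
  S := S
  Ψ := fun _ => 0
  X := fun _ => 1
  rc := 1

theorem uu_Fm (Φ S : ℝ → ℝ) (l : V n → ℝ) (g : MF n) (z : VV n) :
    uu (Fm Φ S) l g z = uu0 l z := by
  simp [H31.EP.uu, Fm, uu0]

theorem r2_one (z : VV n) : H31.EP.r2 (fun _ : V n => (1 : Matrix (Fin n) (Fin n) ℝ)) z = qq z := by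
  unfold H31.EP.r2 H464.Cu.rq H464.Cu.bf
  rw [qq_eq]
  have h : ∀ i : Fin n, ∑ j, (1 : Matrix (Fin n) (Fin n) ℝ) i j * H464.Cu.dif z i *
      H464.Cu.dif z j = qv i z ^ 2 := fun i => by
    rw [Finset.sum_eq_single i]
    · rw [Matrix.one_apply_eq]
      simp only [H464.Cu.dif, qv, Pi.sub_apply]
      ring
    · intro j _ hj
      rw [Matrix.one_apply_ne hj.symm]
      ring
    · intro hi
      exact absurd (Finset.mem_univ i) hi
  simp only [h]
  ring

/-- The data of the family. -/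
structure Fd (n : ℕ) (σ c L : ℝ) (CL : ℕ → ℝ) where
  Φ : ℝ → ℝ
  R : ℝ
  kap : ℝ
  Gs : ℝ
  s₁ : MF n
  s₂ : MF n
  O : Set (V n)
  Ω : Set (VV n)
  sm : ContDiff ℝ ∞ Φ
  n0 : ∀ t, 0 ≤ deriv Φ t
  k0 : ∀ t, 0 ≤ deriv (deriv Φ) t
  kn : ∀ t, deriv (deriv Φ) t ≤ L * deriv Φ t
  kd : ∀ j t, |iteratedDeriv (j + 2) Φ t| ≤ CL j * deriv (deriv Φ) t
  R1 : 1 ≤ R
  oO : IsOpen O
  oΩ : IsOpen Ω
  hx : ∀ z ∈ Ω, z.1 ∈ O
  hy : ∀ z ∈ Ω, z.2 ∈ O
  hm : ∀ z ∈ Ω, H464.Cu.mid z ∈ O
  e1 : ∀ x ∈ O, s₁ x = 1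
  e2 : ∀ x ∈ O, s₂ x = 1
  lv : ∀ x ∈ O, levG n σ R kap Gs x ≤ lam0 R kap Gs + 5 * R
  qc : ∀ z ∈ Ω, qq z ≤ c

theorem chi0_sm : ContDiff ℝ ∞ chi0 :=
  Real.smoothTransition.contDiff.comp ((contDiff_const.sub contDiff_id).div_const _)

/-- **All slot quantities of the model weight.** -/
theorem b0_fam (hn : 1 ≤ n) {σ : ℝ} (h0 : 0 < σ) (h1 : σ ≤ 1 / 5000) {S : ℝ → ℝ}
    (sS : ContDiff ℝ ∞ S) (c : ℝ) {L : ℝ} (hL : 0 ≤ L) (CL : ℕ → ℝ) :
    ∃ C : ℝ, ∀ a : Fd n σ c L CL, ∀ z ∈ a.Ω,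
      B0 (slx (fun _ => 1) a.s₁) (sly (fun _ => 1) a.s₂)
        (Wm a.Φ S (levG n σ a.R a.kap a.Gs)) z C
        (deriv a.Φ (uu0 (levG n σ a.R a.kap a.Gs) z) +
          Real.exp (uu0 (levG n σ a.R a.kap a.Gs) z))
        (deriv (deriv a.Φ) (uu0 (levG n σ a.R a.kap a.Gs) z) +
          deriv a.Φ (uu0 (levG n σ a.R a.kap a.Gs) z) * a.R⁻¹ +
          Real.exp (uu0 (levG n σ a.R a.kap a.Gs) z)) 0 := by
  classical
  let α := Fd n σ c L CL
  let O : α → Set (V n) := fun a => a.O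
  let U : α → Set (VV n) := fun a => a.Ω
  let R : α → ℝ := fun a => a.R
  let l : α → V n → ℝ := fun a => levG n σ a.R a.kap a.Gs
  let g : α → MF n := fun _ _ => 1
  let F : α → Fu := fun a => Fm a.Φ S
  have hR0 : ∀ a : α, 0 < a.R := fun a => one_pos.trans_le a.R1
  -- the level
  have hdl : Sf O (fun a _ => R a) (fun _ _ => 1) 3 (fun a => fderiv ℝ (l a)) := by
    refine ⟨fun a => ((levG_smooth h0 h1).fderiv_right (m := ∞) le_rfl).contDiffOn,
      fun j _ => ?_⟩
    rcases j with _ | j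
    · refine ⟨2 * n, fun a x hx => ?_⟩
      rw [norm_iteratedFDeriv_zero]
      have hw := H222.sq_wR_le (c := 5) h0 h1 (hR0 a) (by norm_num) (a.lv x hx)
      have := H222.fd_lev_le (kap := a.kap) (Gs := a.Gs) h0 h1 (hR0 a)
        (hw.trans (by linarith : 1 + 2 * 5 * σ ≤ 4))
      simpa using this
    · obtain ⟨C, hC, H⟩ := levG_bound (n := n) hn h0 h1 j
      refine ⟨C, fun a x _ => ?_⟩
      rw [norm_iteratedFDeriv_fderiv]
      have := H a.R a.kap a.Gs (hR0 a) x
      simpa using this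
  have hL' : Lg O U R l g √c 3 :=
    { oO := fun a => a.oO
      oU := fun a => a.oΩ
      hx := fun a => a.hx
      hy := fun a => a.hy
      hm := fun a => a.hm
      R1 := fun a => a.R1
      sl := fun a => (levG_smooth h0 h1).contDiffOn
      dl := hdl
      sg := fun i j => Sf.const1 _ _ _ _
      nr := fun a => ⟨0, 0, 0, by norm_num, {
        sm := fun i j => contDiffOn_const
        sy := fun x i j => by
          show (1 : Matrix (Fin n) (Fin n) ℝ) i j = (1 : Matrix (Fin n) (Fin n) ℝ) j i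
          rw [Matrix.one_apply, Matrix.one_apply]
          simp [eq_comm]
        b0 := fun x _ i j => by simp [g]
        b1 := fun x _ k i j => by simp [g, pd]
        b2 := fun x _ l k i j => by
          have : (pd k fun y : V n => g a y i j) = fun _ => 0 := by
            funext y
            simp [g, pd]
          rw [this]
          simp [pd] }⟩
      rR := fun a z hz => by
        show √(H31.EP.r2 (g a) z) ≤ √c * a.R
        have e : H31.EP.r2 (g a) z = qq z := r2_one z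
        rw [e]
        exact (Real.sqrt_le_sqrt (a.qc z hz)).trans
          (le_mul_of_one_le_right (Real.sqrt_nonneg _) a.R1) }
  have hp : Pc F :=
    { s := fun a => a.sm
      n := fun a => a.n0
      k := fun a => a.k0
      kn := ⟨L, hL, fun a => a.kn⟩
      kd := fun j => ⟨CL j, fun a => a.kd j⟩ }
  have hm : Ep.Mc F chi0 (fun _ => 0) (fun _ => 0) :=
    { e := fun _ => rfl
      s := chi0_sm
      c1 := fun t ht => Real.smoothTransition.one_of_one_le (by linarith)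
      c4 := fun t ht => Real.smoothTransition.zero_of_nonpos (by linarith)
      sμ := fun _ => contDiff_const
      b0 := fun _ => le_rfl
      b01 := fun _ => le_rfl
      b1 := fun _ => zero_le_one
      m0 := ⟨0, fun a t => by simp [F, Fm]⟩
      mj := fun j => ⟨0, fun a t => by
        have : (F a).μ = fun _ => (0 : ℝ) := rfl
        rw [this, iteratedDeriv_const]
        simp⟩ }
  have hw := wg_near (k := 2) (c := c) (δ := fun _ => 0) sS hp hm hL'
    (fun a z hz => by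
      have e : H31.EP.r2 (g a) z = qq z := r2_one z
      rw [e]
      exact a.qc z hz) (fun _ => le_rfl) (fun _ => zero_le_one) ⟨0, le_rfl, fun _ => by simp⟩
  have t₁ : Tn O (fun a : α => a.s₁) (fun _ => 0) 2 :=
    { s0 := fun i j => (Sf.const1 O (fun _ _ => 1) 2
        ((1 : Matrix (Fin n) (Fin n) ℝ) i j)).congr (fun a => a.oO)
        fun a x hx => by rw [a.e1 x hx]
      s1 := fun i j => (Sf.zero O (fun _ _ => 1) (fun _ _ => 0) 2).congr (fun a => a.oO)
        fun a x hx => by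
          have : (fun x => a.s₁ x i j) =ᶠ[𝓝 x] fun _ => (1 : Matrix (Fin n) (Fin n) ℝ) i j := by
            filter_upwards [a.oO.mem_nhds hx] with w hw
            rw [a.e1 w hw]
          rw [this.fderiv_eq]
          simp }
  have t₂ : Tn O (fun a : α => a.s₂) (fun _ => 0) 2 :=
    { s0 := fun i j => (Sf.const1 O (fun _ _ => 1) 2
        ((1 : Matrix (Fin n) (Fin n) ℝ) i j)).congr (fun a => a.oO)
        fun a x hx => by rw [a.e2 x hx]
      s1 := fun i j => (Sf.zero O (fun _ _ => 1) (fun _ _ => 0) 2).congr (fun a => a.oO)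
        fun a x hx => by
          have : (fun x => a.s₂ x i j) =ᶠ[𝓝 x] fun _ => (1 : Matrix (Fin n) (Fin n) ℝ) i j := by
            filter_upwards [a.oO.mem_nhds hx] with w hw
            rw [a.e2 w hw]
          rw [this.fderiv_eq]
          simp }
  obtain ⟨C, hC⟩ := (hw.b0 (ft_x hL'.oO hL'.oU hL'.hx (fun _ => le_rfl) t₁)
    (ft_y hL'.oO hL'.oU hL'.hy (fun _ => le_rfl) t₂)).exists
  refine ⟨C, fun a z hz => ?_⟩
  have b := (hC a z hz).congr (W' := Wm a.Φ S (levG n σ a.R a.kap a.Gs)) a.oΩ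
    (fun z _ => by
      show Wm a.Φ S (levG n σ a.R a.kap a.Gs) z = (F a).Φ (uu (F a) (l a) (g a) z) +
        Real.exp (uu (F a) (l a) (g a) z) * S (H31.EP.r2 (g a) z)
      have e : H31.EP.r2 (g a) z = qq z := r2_one z
      rw [e, uu_Fm]
      rfl) hz
  have e1 : uu (F a) (l a) (g a) z = uu0 (levG n σ a.R a.kap a.Gs) z := uu_Fm _ _ _ _ _
  have e2 : Nu F l g a z = deriv a.Φ (uu0 (levG n σ a.R a.kap a.Gs) z) := by
    unfold Nu
    rw [e1]
    rfl
  have e3 : Ku F l g a z = deriv (deriv a.Φ) (uu0 (levG n σ a.R a.kap a.Gs) z) := by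
    unfold Ku
    rw [e1]
    rfl
  have e4 : ww R (fun _ => 0) (fun _ => 0) g a z = a.R⁻¹ := by
    unfold ww tw
    simp [R]
  have e5 : (fun a z => Real.exp (uu (F a) (l a) (g a) z)) a z =
      Real.exp (uu0 (levG n σ a.R a.kap a.Gs) z) := by
    show Real.exp (uu (F a) (l a) (g a) z) = _
    rw [e1]
  unfold kp at b
  rw [e2, e3, e4, e5, e1] at b
  exact b

end Vale.Agent.P088.R2.H312.S
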