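import Vale.Agent.P088.R2.H312.S.Fl
import Vale.Agent.P088.R2.H644.W.SymW

/-!
# P088, zone RSn: from the bounds of helper644 to the hypotheses of helper747
-/

open Set Filter
open scoped ContDiff Topology

noncomputable section

namespace Vale.Agent.P088.R2.H312.S

open Vale.Agent.P088.LR Vale.Agent.P088.HY Vale.Agent.P088.R2.H961.GW Vale.Agent.P088.R2.H644
open Vale.Agent.P088.R2.H644.Ch Vale.Agent.P088.R2.H644.Sy
open Vale.Agent.P088.R2.H747.SW Vale.Agent.P088.R2.H960.W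

/-- Cauchy–Schwarz with weights. -/
lemma ar {c S X m n T Q : ℝ} (hm : 0 < m) (hn : 0 < n) (hS : S ^ 2 ≤ 2 * n * T)
    (hX : X ^ 2 ≤ 2 * Q) : c * (S * X) ≤ 4 * m * T + c ^ 2 * n / (4 * m) * Q := by
  have h1 : c * (S * X) ≤ 2 * m / n * S ^ 2 + c ^ 2 * n / (8 * m) * X ^ 2 := by
    have e : 2 * m / n * S ^ 2 + c ^ 2 * n / (8 * m) * X ^ 2 - c * (S * X) =
        2 * m / n * (S - c * n / (4 * m) * X) ^ 2 := by field_simp; ring
    have : 0 ≤ 2 * m / n * (S - c * n / (4 * m) * X) ^ 2 := by positivity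
    linarith
  have h2 : 2 * m / n * S ^ 2 ≤ 2 * m / n * (2 * n * T) :=
    mul_le_mul_of_nonneg_left hS (by positivity)
  have h3 : c ^ 2 * n / (8 * m) * X ^ 2 ≤ c ^ 2 * n / (8 * m) * (2 * Q) :=
    mul_le_mul_of_nonneg_left hX (by positivity)
  have e2 : 2 * m / n * (2 * n * T) = 4 * m * T := by field_simp; ring
  have e3 : c ^ 2 * n / (8 * m) * (2 * Q) = c ^ 2 * n / (4 * m) * Q := by field_simp; ring
  linarith

lemma l1_sq {ι : Type*} [Fintype ι] (A B : ι → ℝ) : ((∑ i, |A i|) + ∑ i, |B i|) ^ 2 ≤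
    2 * (Fintype.card ι : ℝ) * (∑ i, A i ^ 2 + ∑ i, B i ^ 2) := by
  have h : ∀ A : ι → ℝ, (∑ i, |A i|) ^ 2 ≤ (Fintype.card ι : ℝ) * ∑ i, A i ^ 2 := by
    intro A
    have := sq_sum_le_card_mul_sum_sq (s := (Finset.univ : Finset ι)) (f := fun i => |A i|)
    simpa [sq_abs] using this
  nlinarith [h A, h B, sq_nonneg ((∑ i, |A i|) - ∑ i, |B i|)]

variable {E ι : Type*} [NormedAddCommGroup E] [NormedSpace ℝ E] [Fintype ι]
  {σ τ : Sl E ι} {U : Set E} {θ : E → ℝ} {W m : E → ℝ} {z : E} {C N κ a s C₂ η : ℝ}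

theorem tc_zero (σ : Sl E ι) (W : E → ℝ) (z : E) (A : ι → ℝ) :
    tc σ (fun _ _ => 0) W z A = 0 := by
  unfold tc; simp

/-- **The total inequality at a point.** -/
theorem pt_cert [Nonempty ι] (b : B0 σ τ W z C N κ 0) (ok : σ.Ok U θ) (ot : τ.Ok U θ)
    (h1 : ∀ z, σ.ρ z = 1) (h1' : ∀ z, τ.ρ z = 1) (hL : Ch.Lx σ U) (hL' : Ch.Lx τ U)
    (hW : Sm U W) (hz : z ∈ U)
    (hs : ∀ A : ι → ℝ, ss σ A z = ∑ i, A i ^ 2) (ht : ∀ A : ι → ℝ, ss τ A z = ∑ i, A i ^ 2)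
    (hm : m z = s * a) (s0 : 0 < s) (a0 : 0 < a)
    (hTH : ∀ A B : ι → ℝ, m z * (∑ i, A i ^ 2 + ∑ i, B i ^ 2) ≤ Ch.TH σ τ W z A B)
    (hF : a ^ 2 / 4 ≤ σ.F W z) (hF' : a ^ 2 / 4 ≤ τ.F W z) (hη : 0 ≤ η) (hκ : κ ≤ C₂ * a)
    (hbig : Cqf (Fintype.card ι) (Fintype.card ι) C ^ 2 * C₂ ^ 2 * (Fintype.card ι : ℝ) / (4 * s) +
      Cqf (Fintype.card ι) (Fintype.card ι) C * (C₂ ^ 2 * a + C₂) ≤ η * s / 4 * a ^ 2)
    (A B : ι → ℝ) (x y : ℝ) :
    4 * (m z * ss σ A z + m z * ss τ B z) -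
      η * (m z * σ.F W z * x ^ 2 + m z * τ.F W z * y ^ 2) ≤
    8 * (Ch.TH σ τ W z A B + tc σ (fun _ _ => 0) W z A + tc τ (fun _ _ => 0) W z B) +
      qf σ τ (fun _ => 0) (fun _ => 0) W z A B x y := by
  have hq := b.qf (v₁ := fun _ => 0) (v₂ := fun _ => 0) (ν := 0) ok ot h1 h1' hL hL' hW hz le_rfl
    (fun i => by rw [D_const]; simp) (fun i => by rw [D_const]; simp) A B x y
  have e0 : qf σ τ (fun _ => 0) (fun _ => 0) W z A B x y =
      H747.S.qf σ τ (fun _ => 0) (fun _ => 0) W z A B x y := rfl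
  have hq1 := (abs_le.1 hq).1
  rw [e0]
  set c := Cqf (Fintype.card ι) (Fintype.card ι) C with hc
  have hn : (0 : ℝ) < Fintype.card ι := by exact_mod_cast Fintype.card_pos
  have c0 : 0 ≤ c := by
    have := b.C0
    unfold Cqf at hc
    rw [hc]; positivity
  have hm0 : 0 < m z := by rw [hm]; positivity
  rw [tc_zero, tc_zero, hs, ht]
  have hX : (|x| + |y|) ^ 2 ≤ 2 * (x ^ 2 + y ^ 2) := by
    nlinarith [sq_nonneg (|x| - |y|), sq_abs x, sq_abs y]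
  have k1 := ar (c := c * κ) hm0 hn (l1_sq A B) hX
  set T := ∑ i, A i ^ 2 + ∑ i, B i ^ 2 with hT
  have hTH' := hTH A B
  have hQ : 0 ≤ x ^ 2 + y ^ 2 := by positivity
  have hκ2 : κ ^ 2 ≤ C₂ ^ 2 * a ^ 2 := by
    have := pow_le_pow_left₀ b.k0 hκ 2
    linarith [show (C₂ * a) ^ 2 = C₂ ^ 2 * a ^ 2 by ring]
  -- the coefficient of `x² + y²`
  have k2 : (c * κ) ^ 2 * (Fintype.card ι : ℝ) / (4 * m z) + c * (κ ^ 2 + κ) ≤
      η * (m z * (a ^ 2 / 4)) := by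
    have e1 : (c * κ) ^ 2 * (Fintype.card ι : ℝ) / (4 * m z) ≤
        (c ^ 2 * C₂ ^ 2 * (Fintype.card ι : ℝ) / (4 * s)) * a := by
      rw [hm]
      have e : (c ^ 2 * C₂ ^ 2 * (Fintype.card ι : ℝ) / (4 * s)) * a =
          c ^ 2 * (C₂ ^ 2 * a ^ 2) * (Fintype.card ι : ℝ) / (4 * (s * a)) := by
        field_simp
      rw [e]
      refine div_le_div_of_nonneg_right ?_ (by positivity)
      refine mul_le_mul_of_nonneg_right ?_ hn.le
      rw [mul_pow]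
      exact mul_le_mul_of_nonneg_left hκ2 (sq_nonneg _)
    have e2 : c * (κ ^ 2 + κ) ≤ c * (C₂ ^ 2 * a + C₂) * a := by
      have : κ ^ 2 + κ ≤ (C₂ ^ 2 * a + C₂) * a := by nlinarith
      calc c * (κ ^ 2 + κ) ≤ c * ((C₂ ^ 2 * a + C₂) * a) := mul_le_mul_of_nonneg_left this c0
        _ = _ := by ring
    have e3 := mul_le_mul_of_nonneg_right hbig a0.le
    rw [hm] at e1 ⊢
    have e4 : η * (s * a * (a ^ 2 / 4)) = η * s / 4 * a ^ 2 * a := by ring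
    linarith
  have k3 := mul_le_mul_of_nonneg_right k2 hQ
  have k4 : η * (m z * (a ^ 2 / 4)) * (x ^ 2 + y ^ 2) ≤
      η * (m z * σ.F W z * x ^ 2 + m z * τ.F W z * y ^ 2) := by
    have f1 : m z * (a ^ 2 / 4) * x ^ 2 ≤ m z * σ.F W z * x ^ 2 :=
      mul_le_mul_of_nonneg_right (mul_le_mul_of_nonneg_left hF hm0.le) (sq_nonneg _)
    have f2 : m z * (a ^ 2 / 4) * y ^ 2 ≤ m z * τ.F W z * y ^ 2 :=
      mul_le_mul_of_nonneg_right (mul_le_mul_of_nonneg_left hF' hm0.le) (sq_nonneg _)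
    have := mul_le_mul_of_nonneg_left (add_le_add f1 f2) hη
    linarith
  have e5 : c * (κ * ((∑ i, |A i|) + ∑ i, |B i|) * (|x| + |y|) +
      (κ ^ 2 + κ + 0 * N ^ 2 + 0 * N) * (x ^ 2 + y ^ 2)) =
      c * κ * (((∑ i, |A i|) + ∑ i, |B i|) * (|x| + |y|)) +
      c * (κ ^ 2 + κ) * (x ^ 2 + y ^ 2) := by ring
  rw [e5] at hq1
  have e6 : 4 * (m z * ∑ i, A i ^ 2 + m z * ∑ i, B i ^ 2) = 4 * (m z * T) := by rw [hT]; ring
  rw [e6]
  have e7 : 4 * m z * T = 4 * (m z * T) := by ring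
  have e8 : 0 ≤ m z * T := mul_nonneg hm0.le (add_nonneg (Finset.sum_nonneg fun _ _ => sq_nonneg _)
    (Finset.sum_nonneg fun _ _ => sq_nonneg _))
  linarith

/-- **The smallness of the errors of one slot.** -/
theorem pt_sm (hs : ∀ A : ι → ℝ, ss σ A z = ∑ i, A i ^ 2)
    (hs2 : ∀ A B : ι → ℝ, ∑ i, ∑ j, σ.s i j z * A i * B j = ∑ i, A i * B i)
    (hd : ∀ j, σ.D j (fun _ => (0 : ℝ)) z = 0)
    (hm : m z = s * a) (s0 : 0 < s) (a0 : 0 < a) (hF : a ^ 2 / 4 ≤ σ.F W z)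
    (hη : 0 ≤ η) {c₁ c₂ : ℝ} (hΛ : |σ.Λ W z| ≤ c₁ * a) (hΓ : |σ.Γ m W z| ≤ s * (c₂ * a ^ 2))
    (hbig : c₁ + c₂ ≤ η / 4 * a) :
    SmS σ W m (fun _ _ => 0) (fun _ => 0) η 1 z where
  m0 := by rw [hm]; positivity
  lo A := by
    rw [hs]
    have : 0 ≤ ∑ i, A i ^ 2 := Finset.sum_nonneg fun _ _ => sq_nonneg _
    linarith
  sK A B := by
    rw [hs2, one_pow, one_mul]
    exact Finset.sum_mul_sq_le_sq_mul_sq _ _ _
  w1 := by
    have e1 : |m z * σ.Λ W z + σ.Γ m W z| ≤ s * a * (c₁ * a) + s * (c₂ * a ^ 2) := by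
      refine (abs_add_le _ _).trans (add_le_add ?_ hΓ)
      rw [abs_mul, hm, abs_of_pos (by positivity)]
      exact mul_le_mul_of_nonneg_left hΛ (by positivity)
    have e2 : s * a * (c₁ * a) + s * (c₂ * a ^ 2) = s * a ^ 2 * (c₁ + c₂) := by ring
    have e3 := mul_le_mul_of_nonneg_left hbig (by positivity : 0 ≤ s * a ^ 2)
    have e4 : s * a ^ 2 * (η / 4 * a) = η * (s * a * (a ^ 2 / 4)) := by ring
    have e5 : η * (s * a * (a ^ 2 / 4)) ≤ η * (m z * σ.F W z) := by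
      rw [hm]
      exact mul_le_mul_of_nonneg_left (mul_le_mul_of_nonneg_left hF (by positivity)) hη
    linarith
  f1 := by
    have : dF σ (fun _ _ => 0) W z = 0 := by
      unfold dF
      refine Finset.sum_eq_zero fun j _ => ?_
      simp only [mul_zero, add_zero]
      exact hd j
    rw [this, abs_zero, hm]
    have hF0 : 0 ≤ σ.F W z := le_trans (by positivity) hF
    positivity
  f2 A := by
    have hd' : ∀ i, σ.D i (fun _ => (0 : ℝ)) z = 0 := hd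
    have : eC σ (fun _ _ => 0) (fun _ => 0) W A z = 0 := by
      unfold eC cY
      simp [hd']
    rw [this, abs_zero, hm]
    have : 0 ≤ Ys σ W A z := Finset.sum_nonneg fun _ _ => sq_nonneg _
    positivity
  f3 := by
    simp only [ne_eq, OfNat.ofNat_ne_zero, not_false_eq_true, zero_pow, Finset.sum_const_zero,
      mul_zero]
    positivity

end Vale.Agent.P088.R2.H312.S
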