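import Vale.Agent.P088.R2.H312.S.Zone

/-!
# P088, zone RSn: the theorem
-/

open Set Filter
open scoped ContDiff Topology

noncomputable section

namespace Vale.Agent.P088.R2.H312.S

open Vale.Agent.P088.LR Vale.Agent.P088.HY Vale.Agent.P088.R2.H961.GW Vale.Agent.P088.R2.H644
open Vale.Agent.P088.R2.H644.Ch Vale.Agent.P088.R2.H644.Sy
open Vale.Agent.P088.R2.H747.SW Vale.Agent.P088.R2.H960.W
open Vale.Agent.P088.R2.H31.EP (Cst Pk PkOk EvC prS prR rp dp Li NB_Cs LitSm ZoneThm)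

variable {n : ℕ} {q : Cst} {d : Pk n} {z : VV n}

lemma big1 {c C₂ m σ R a T B : ℝ} (hc : 0 ≤ c) (hC : 0 ≤ C₂) (hm : 0 ≤ m) (hσ : 0 < σ)
    (hR : 1 ≤ R) (ha : 1 ≤ a) (hB : 0 ≤ B)
    (hT : T = 800 / σ * (c ^ 2 * C₂ ^ 2 * m / (4 * σ) + c * (C₂ ^ 2 + C₂)) * R ^ 2 + B)
    (h : T ≤ a) : c ^ 2 * C₂ ^ 2 * m / (4 * (σ / R)) + c * (C₂ ^ 2 * a + C₂) ≤
      1 / 200 * (σ / R) / 4 * a ^ 2 := by
  have hR0 : 0 < R := by linarith
  set P := c ^ 2 * C₂ ^ 2 * m / (4 * σ) with hP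
  have P0 : 0 ≤ P := by positivity
  have e1 : c ^ 2 * C₂ ^ 2 * m / (4 * (σ / R)) = P * R := by
    rw [hP]
    field_simp
  have Q0 : 0 ≤ c * (C₂ ^ 2 + C₂) := by positivity
  have e2 : c * (C₂ ^ 2 * a + C₂) ≤ c * (C₂ ^ 2 + C₂) * a := by
    have : C₂ ^ 2 * a + C₂ ≤ (C₂ ^ 2 + C₂) * a := by nlinarith
    calc c * (C₂ ^ 2 * a + C₂) ≤ c * ((C₂ ^ 2 + C₂) * a) := mul_le_mul_of_nonneg_left this hc
      _ = _ := by ring
  have e3 : P * R ≤ P * R * a := le_mul_of_one_le_right (by positivity) ha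
  have e4 : c * (C₂ ^ 2 + C₂) * a ≤ c * (C₂ ^ 2 + C₂) * a * R :=
    le_mul_of_one_le_right (by positivity) hR
  have e5 : 800 / σ * (P + c * (C₂ ^ 2 + C₂)) * R ^ 2 ≤ a := by linarith
  have e6 : (P + c * (C₂ ^ 2 + C₂)) * R * a ≤ 1 / 200 * (σ / R) / 4 * a ^ 2 := by
    have e7 := mul_le_mul_of_nonneg_right e5 (by positivity : 0 ≤ σ / (800 * R) * a)
    have e8 : 800 / σ * (P + c * (C₂ ^ 2 + C₂)) * R ^ 2 * (σ / (800 * R) * a) =
        (P + c * (C₂ ^ 2 + C₂)) * R * a := by field_simp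
    have e9 : a * (σ / (800 * R) * a) = 1 / 200 * (σ / R) / 4 * a ^ 2 := by
      field_simp
      ring
    rw [e8, e9] at e7
    exact e7
  rw [e1]
  nlinarith

/-- **The zone theorem at one package.** -/
theorem zone_pk (hn : 1 ≤ n) (h : NmR n q) (hT : Tq n q q.R ≤ Real.exp (2 * q.R))
    (hd : PkOk q d) (hl0 : 0 ≤ d.l₀ q) (hs : LitSm q d)
    (hrq : ∀ z, 1 / 2 * H31.EP.qq z ≤ 2 * H464.Cu.rq (H31.EP.gi d.s₁) z) :
    d.Zone q (d.ch q .RSn) ((MA d.sx d.sy (d.W q) (mRS q d) (1 / 200)).sm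
      fun z => d.ch q .RSn z ^ 2) (coA d.sx d.sy (d.W q) (mRS q d) (d.ch q .RSn) (1 / 200)) := by
  have : Nonempty (Fin n) := ⟨⟨0, hn⟩⟩
  have := haar_VV (n := n)
  have hR : 0 < q.R := by linarith [h.R1]
  have hU := (H222.UR_eq hn hd (by linarith [r0q_ge q]) h.tr).1
  have hO := OmR_open hd hs hU
  have hsub := SR_sub hn h hd hrq
  have ok : d.sx.Ok univ 1 := H551.E.fx_ok hd.rg.sm₁ hd.rg.sy₁ isOpen_univ
  have ot : d.sy.Ok univ 1 := H551.E.fy_ok hd.rg.sm₂ hd.rg.sy₂ isOpen_univ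
  have hW := W_sm hd hs
  have hf : ∀ z ∈ OmR q d, FcR n q d z := fun z hz => facts hn h hd hl0 hz
  have hs1 : ∀ z ∈ OmR q d, d.s₁ z.1 = 1 := fun z hz => (hf z hz).s1
  have hs2 : ∀ z ∈ OmR q d, d.s₂ z.2 = 1 := fun z hz => (hf z hz).s2
  have s0 : 0 < q.σ / q.R := div_pos h.σ0 hR
  have C20 : 0 ≤ C2q q := by
    unfold C2q
    linarith [h.L2]
  have a1 : ∀ z ∈ OmR q d, 1 ≤ d.NG q z ∧ Tq n q q.R ≤ d.NG q z := fun z hz => by
    have h1 := (ptR hn h hd hl0 hs hO hz).a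
    have h2 : 1 ≤ Real.exp (2 * q.R) := Real.one_le_exp (by linarith)
    exact ⟨h2.trans h1, hT.trans h1⟩
  have hK : 0 ≤ 800 * (Cq n q * C2q q + 5 * C2q q ^ 2) ∨ OmR q d = ∅ := by
    rcases (OmR q d).eq_empty_or_nonempty with h1 | ⟨z, hz⟩
    · exact Or.inr h1
    · left
      have := (b0_pt hn h hd hl0 hO hz).C0
      positivity
  have hb2 : ∀ z ∈ OmR q d, Cq n q * C2q q + 5 * C2q q ^ 2 ≤ 1 / 200 / 4 * d.NG q z := by
    intro z hz
    have b := b0_pt hn h hd hl0 hO hz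
    have h1 := (a1 z hz).2
    unfold Tq at h1
    have h2 : 0 ≤ 800 / q.σ * (Cqf n n (Cq n q) ^ 2 * C2q q ^ 2 * n / (4 * q.σ) +
        Cqf n n (Cq n q) * (C2q q ^ 2 + C2q q)) * q.R ^ 2 := by
      have hc : 0 ≤ Cqf n n (Cq n q) := by
        have := b.C0
        unfold Cqf
        positivity
      have := h.σ0
      positivity
    linarith
  refine zoneA (c := fun _ _ => 0) (c' := fun _ _ => 0) (Ω := OmR q d) (S := SR q d) (K := 1)
    ok ot contDiffOn_const contDiffOn_const hW.contDiffOn (hs.ch .RSn).contDiffOn hO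
    (subset_univ _) (SR_closed hd hs) (fun z hz => hsub hz.2) (fun z _ hz => ?_)
    (fun _ => contDiffOn_const) (fun _ => contDiffOn_const) ?_ (by norm_num) (by norm_num)
    le_rfl le_rfl zero_le_one (by norm_num) (fun z hz => ?_) (fun z hz => ?_) ?_
  · by_contra hc
    exact hz (ch_SR h hd hs.cp hc)
  · exact (contDiff_const.mul hs.NG).contDiffOn
  · have b := b0_pt hn h hd hl0 hO hz
    have p := ptR hn h hd hl0 hs hO hz
    have a0 : 0 < d.NG q z := by linarith [(a1 z hz).1]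
    refine pt_sm (s := q.σ / q.R) (a := d.NG q z) (c₁ := Cq n q * C2q q) (c₂ := 5 * C2q q ^ 2)
      (sx_ss hs1 hz) (fun A B => ?_) (fun j => D_const _ _ _ _) rfl s0 a0 p.F₁ (by norm_num)
      ?_ p.G₁ (hb2 z hz)
    · refine Finset.sum_congr rfl fun i _ => ?_
      have e : ∀ j, d.sx.s i j z = if i = j then 1 else 0 := fun j => sx_s hs1 hz i j
      simp only [e, ite_mul, one_mul, zero_mul, Finset.sum_ite_eq, Finset.mem_univ, if_true]
    · refine b.L1.trans ?_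
      rw [mul_assoc]
      exact mul_le_mul_of_nonneg_left p.κ b.C0
  · have b := b0_pt hn h hd hl0 hO hz
    have p := ptR hn h hd hl0 hs hO hz
    have a0 : 0 < d.NG q z := by linarith [(a1 z hz).1]
    refine pt_sm (s := q.σ / q.R) (a := d.NG q z) (c₁ := Cq n q * C2q q) (c₂ := 5 * C2q q ^ 2)
      (sy_ss hs2 hz) (fun A B => ?_) (fun j => D_const _ _ _ _) rfl s0 a0 p.F₂ (by norm_num)
      ?_ p.G₂ (hb2 z hz)
    · refine Finset.sum_congr rfl fun i _ => ?_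
      have e : ∀ j, d.sy.s i j z = if i = j then 1 else 0 := fun j => sy_s hs2 hz i j
      simp only [e, ite_mul, one_mul, zero_mul, Finset.sum_ite_eq, Finset.mem_univ, if_true]
    · refine b.L2.trans ?_
      rw [mul_assoc]
      exact mul_le_mul_of_nonneg_left p.κ b.C0
  · intro z hz A B x y
    have b := b0_pt hn h hd hl0 hO hz
    have p := ptR hn h hd hl0 hs hO hz
    have a0 : 0 < d.NG q z := by linarith [(a1 z hz).1]
    have hc : 0 ≤ Cqf n n (Cq n q) := by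
      have := b.C0
      unfold Cqf
      positivity
    have hk0 : 0 ≤ 800 * (Cq n q * C2q q + 5 * C2q q ^ 2) := by
      have := b.C0
      positivity
    have hbig := big1 hc C20 (Nat.cast_nonneg n) h.σ0 (by linarith [h.R1]) (a1 z hz).1 hk0
      (T := Tq n q q.R) rfl (a1 z hz).2
    have key := pt_cert (m := mRS q d) (s := q.σ / q.R) (a := d.NG q z) (C₂ := C2q q)
      (η := 1 / 200) b ok ot (fun _ => rfl) (fun _ => rfl) (H644.Ep.Lx_x d.s₁ univ)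
      (H644.Ep.Lx_y d.s₂ univ) hW.contDiffOn (mem_univ z) (sx_ss hs1 hz) (sy_ss hs2 hz) rfl s0 a0
      p.TH p.F₁ p.F₂ (by norm_num) p.κ (by
        simp only [Fintype.card_fin]
        exact hbig) A B x y
    exact key

/-! ## The constants -/

theorem ev_nmS : EvC fun q => H509.Rad.Ok q.e₁ rp → ∀ τ ∈ Icc 0 (r0q q ^ 2),
    20 * Ph1 2 Li q.e₁ rp dp τ * r0q q ^ 2 ≤ q.nm := by
  refine EvC.at_nm (fun q t => H509.Rad.Ok q.e₁ rp → ∀ τ ∈ Icc 0 (r0q q ^ 2),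
    20 * Ph1 2 Li q.e₁ rp dp τ * r0q q ^ 2 ≤ t) fun q => ?_
  by_cases h : H509.Rad.Ok q.e₁ rp
  · have hc : Continuous (Ph1 2 Li q.e₁ rp dp) :=
      continuous_iff_continuousAt.2 fun s => (h.pp.d2_Ph.d2 s).continuousAt
    obtain ⟨C, hC⟩ := (isCompact_Icc (a := (0 : ℝ)) (b := r0q q ^ 2)).exists_bound_of_continuousOn
      hc.continuousOn
    filter_upwards [eventually_ge_atTop (20 * C * r0q q ^ 2)] with t ht _ τ hτ
    refine le_trans ?_ ht
    have := (le_abs_self _).trans (hC τ hτ)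
    have h2 : 0 ≤ r0q q ^ 2 := sq_nonneg _
    nlinarith
  · exact Eventually.of_forall fun t h' => absurd h' h

theorem evN (n : ℕ) : EvC (NmR n) := by
  have h1 : EvC fun q => 2 ≤ q.nm :=
    EvC.at_nm (fun _ t => 2 ≤ t) fun _ => eventually_ge_atTop _
  have h2 : EvC fun q => 6 ≤ q.R :=
    EvC.at_R (fun _ t => 6 ≤ t) fun _ => eventually_ge_atTop _
  have h3 := H222.ev_TR (n := n) r0q_NB
  refine ((EvC.pos.and (h1.and h2)).and ((h3.and EvC.rad).and (EvC.good.and ev_nmS))).mono ?_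
  rintro q ⟨⟨p, h1, h2⟩, ⟨h3, h4⟩, h5, h6⟩
  obtain ⟨⟨-, pe, -, -, -, -, -, -, -, -⟩, ⟨pκ, pσ, -, -, -, -, -⟩, pM, -⟩ := p
  exact
    { e0 := pe
      nm2 := h1
      nmS := h6 h4
      e1 := h4.e1.trans (by norm_num)
      κ0 := pκ
      σ0 := pσ
      σ1 := h3.σ1
      L2 := h5.1.2.1
      M1 := pM
      R1 := h2
      rad := h4
      nr := h3.nR
      rd := h3.rd }

lemma ev_exp (A B : ℝ) : ∀ᶠ t : ℝ in atTop, A * t ^ 2 + B ≤ Real.exp (2 * t) := by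
  filter_upwards [eventually_ge_atTop 1, eventually_ge_atTop (|A| + |B|)] with t h1 h2
  have h3 := Real.pow_div_factorial_le_exp (2 * t) (by linarith) 3
  have h4 : (2 * t) ^ 3 / (Nat.factorial 3 : ℝ) = 4 / 3 * t ^ 3 := by
    norm_num [Nat.factorial]
    ring
  rw [h4] at h3
  have h5 : A * t ^ 2 ≤ |A| * t ^ 2 := mul_le_mul_of_nonneg_right (le_abs_self A) (sq_nonneg t)
  have h6 : B ≤ |B| * t ^ 2 := by
    have : (1 : ℝ) ≤ t ^ 2 := by nlinarith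
    nlinarith [le_abs_self B, abs_nonneg B]
  have h7 : (|A| + |B|) * t ^ 2 ≤ t * t ^ 2 := mul_le_mul_of_nonneg_right h2 (sq_nonneg t)
  have h8 : 0 ≤ t ^ 3 := by positivity
  nlinarith

theorem evT (n : ℕ) : EvC fun q => Tq n q q.R ≤ Real.exp (2 * q.R) := by
  have h := EvC.at_R (fun q t => Tq n q t ≤ Real.exp (2 * t)) fun q => ev_exp
    (800 / q.σ * (Cqf n n (Cq n q) ^ 2 * C2q q ^ 2 * n / (4 * q.σ) +
      Cqf n n (Cq n q) * (C2q q ^ 2 + C2q q))) (800 * (Cq n q * C2q q + 5 * C2q q ^ 2))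
  exact h.mono fun q hq => hq

/-- **Zone RSn.** -/
theorem zone_RSn (n : ℕ) (hn : 3 ≤ n) : ZoneThm n (fun q d => d.ch q .RSn)
    (fun q d => (MA d.sx d.sy (d.W q) (mRS q d) (1 / 200)).sm fun z => d.ch q .RSn z ^ 2)
    (fun q d => coA d.sx d.sy (d.W q) (mRS q d) (d.ch q .RSn) (1 / 200)) := by
  refine (((evN n).and (evT n)).and (((EvC.lvG n).and (EvC.litSm n)).and (EvC.rq n))).mono ?_
  rintro q ⟨⟨h1, h2⟩, ⟨h3, h4⟩, h5⟩ d hd
  exact zone_pk (by omega) h1 h2 hd (h3 d hd).l0 (h4 d hd) fun z => ((h5 d hd).2 z).2.1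

/-- The facts on the leaf (for the payments and the gain). -/
theorem alive_RSn (n : ℕ) (hn : 1 ≤ n) : EvC fun q => ∀ d : Pk n, PkOk q d → ∀ z,
    d.ch q .RSn z ≠ 0 → FcR n q d z ∧ PtR n q d z ∧ z ∈ OmR q d := by
  refine ((evN n).and (((EvC.lvG n).and (EvC.litSm n)).and (EvC.rq n))).mono ?_
  rintro q ⟨h1, ⟨h3, h4⟩, h5⟩ d hd z hz
  have hU := (H222.UR_eq hn hd (by linarith [r0q_ge q]) h1.tr).1
  have hO := OmR_open hd (h4 d hd) hU
  have hm := SR_sub hn h1 hd (fun z => ((h5 d hd).2 z).2.1) (ch_SR h1 hd (h4 d hd).cp hz)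
  exact ⟨facts hn h1 hd (h3 d hd).l0 hm, ptR hn h1 hd (h3 d hd).l0 (h4 d hd) hO hm, hm⟩

end Vale.Agent.P088.R2.H312.S
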