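import Vale.Agent.P088.R2.H312.S.Bd
import Vale.Agent.P088.R2.H222.PkR
import Vale.Agent.P088.R2.H509.EP.Side
import Vale.Agent.P088.R2.H551.E.Br

/-!
# P088, zone RSn: the region on the package
-/

open Set Filter
open scoped ContDiff Topology

noncomputable section

namespace Vale.Agent.P088.R2.H312.S

open Vale.Agent.P088.LR Vale.Agent.P088.HY Vale.Agent.P088.R2.H961.GW Vale.Agent.P088.R2.H644
open Vale.Agent.P088.R2.H475
open Vale.Agent.P088.R2.H31.EP (Cst Pk PkOk EvC prS prR rp dp Li NB_Cs LitSm)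
open Vale.Agent.P088.R2.H222 (UR UT W0)

variable {n : ℕ} {σ R kap Gs : ℝ} {x : V n}

/-! ## The level -/

theorem sq_ge_one (h0 : 0 < σ) (h1 : σ ≤ 1 / 5000) (hR : 0 < R)
    (h : lam0 R kap Gs ≤ levG n σ R kap Gs x) : 1 ≤ HY.sq (wR n σ R x) := by
  have hg : 0 ≤ gg n σ (R⁻¹ • x) := by
    rw [levG_eq] at h
    by_contra hc
    have := mul_neg_of_pos_of_neg hR (not_le.1 hc)
    linarith
  have ht : th1 σ ≤ HY.sq (wR n σ R x) := th1_le_of_gg h0 h1 (by linarith)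
  rw [levG_lit h0 h1 ht] at h
  by_contra hc
  have h2 : 0 < R / (2 * σ) := by positivity
  have := mul_neg_of_pos_of_neg h2 (by linarith [not_le.1 hc] : HY.sq (wR n σ R x) - 1 < 0)
  linarith

theorem pp'_zero (h0 : 0 < σ) (h1 : σ ≤ 1 / 5000) {θ : ℝ} (h : th1 σ < θ) (hθ : 0 ≤ θ) :
    pp' σ θ = 0 := by
  have d1 : HasDerivAt (pp σ) (pp' σ θ) θ := hasDerivAt_pp (by linarith)
  have e : pp σ =ᶠ[𝓝 θ] fun _ => (1 : ℝ) := by
    filter_upwards [Ioi_mem_nhds h] with t ht using pp_one h0 h1 (le_of_lt ht)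
  exact d1.unique ((hasDerivAt_const θ (1 : ℝ)).congr_of_eventuallyEq e)

/-- The Hessian of the level above `lam0`. -/
theorem pd2_flat (h0 : 0 < σ) (h1 : σ ≤ 1 / 5000) (hR : 0 < R)
    (h : lam0 R kap Gs ≤ levG n σ R kap Gs x) (i j : Fin n) :
    pd i (pd j (levG n σ R kap Gs)) x = if i = j then σ / R else 0 := by
  have h2 := sq_ge_one h0 h1 hR h
  have h3 : th1 σ < HY.sq (wR n σ R x) := (th1_lt h0 h1).trans_le h2
  rw [pd2_levG h0 h1 hR j i x, pp_one h0 h1 h3.le, pp'_zero h0 h1 h3 (by linarith)]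
  simp only [eq_comm (a := j)]
  split_ifs <;> ring

/-- The gradient of the level above `lam0`. -/
theorem pd_flat (h0 : 0 < σ) (h1 : σ ≤ 1 / 5000) (hR : 0 < R)
    (h : lam0 R kap Gs ≤ levG n σ R kap Gs x)
    (h' : levG n σ R kap Gs x ≤ lam0 R kap Gs + 5 * R) :
    1 ≤ ∑ i, pd i (levG n σ R kap Gs) x ^ 2 ∧ ∑ i, pd i (levG n σ R kap Gs) x ^ 2 ≤ 2 := by
  have h2 := sq_ge_one h0 h1 hR h
  have h3 : th1 σ < HY.sq (wR n σ R x) := (th1_lt h0 h1).trans_le h2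
  have e : ∑ i, pd i (levG n σ R kap Gs) x ^ 2 = HY.sq (wR n σ R x) := by
    unfold HY.sq
    refine Finset.sum_congr rfl fun i _ => ?_
    rw [pd_levG h0 h1 hR, pp_one h0 h1 h3.le, one_mul]
  rw [e]
  refine ⟨h2, (H222.sq_wR_le (c := 5) h0 h1 hR (by norm_num) h').trans (by linarith)⟩

/-! ## The region -/

variable {q : Cst} {d : Pk n} {z : VV n}

/-- The radius. -/
def r0q (q : Cst) : ℝ := 2 * (prR q.e₁ + 1)

theorem r0q_NB : NB_Cs r0q := fun _ => rfl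

theorem r0q_ge (q : Cst) : 2 ≤ r0q q := by
  have := H31.EP.prR_pos q.e₁
  unfold r0q
  linarith

/-- The neighbourhood of the support. -/
def OmR (q : Cst) (d : Pk n) : Set (VV n) :=
  {z | z ∈ UR q d (r0q q) ∧ deriv d.Φ (d.u0 z) < deriv (deriv d.Φ) (d.u0 z) ∧
    q.nm * Real.exp (d.u0 z) < 2 * deriv d.Φ (d.u0 z)}

/-- A closed set which contains the support. -/
def SR (q : Cst) (d : Pk n) : Set (VV n) :=
  {z | d.uth q ≤ d.u q z ∧ q.nm * Real.exp (d.u q z) ≤ deriv d.Φ (d.u q z) ∧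
    2 * H464.Cu.rq (H31.EP.gi d.s₁) z ≤ (prR q.e₁ + 1) ^ 2 ∧
    d.u0 z ≤ 2 * d.l₀ q + 93 / 20 * q.R}

theorem SR_closed (hd : PkOk q d) (hs : LitSm q d) : IsClosed (SR q d) := by
  have c1 : Continuous (d.u q) := hs.u.continuous
  have c2 : Continuous (H464.Cu.rq (H31.EP.gi d.s₁)) := hs.rq.continuous
  have c3 : Continuous (d.u0) := hs.u0.continuous
  have c4 : Continuous (deriv d.Φ) := hd.Φ's.continuous
  have e : SR q d = {z | d.uth q ≤ d.u q z} ∩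
      ({z | q.nm * Real.exp (d.u q z) ≤ deriv d.Φ (d.u q z)} ∩
      ({z | 2 * H464.Cu.rq (H31.EP.gi d.s₁) z ≤ (prR q.e₁ + 1) ^ 2} ∩
      {z | d.u0 z ≤ 2 * d.l₀ q + 93 / 20 * q.R})) := rfl
  rw [e]
  refine (isClosed_le continuous_const c1).inter
    ((isClosed_le (continuous_const.mul (Real.continuous_exp.comp c1)) (c4.comp c1)).inter
      ((isClosed_le (continuous_const.mul c2) continuous_const).inter
        (isClosed_le c3 continuous_const)))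

theorem OmR_open (hd : PkOk q d) (hs : LitSm q d) (hU : IsOpen (UR q d (r0q q))) :
    IsOpen (OmR q d) := by
  have c3 : Continuous (d.u0) := hs.u0.continuous
  have c4 : Continuous (deriv d.Φ) := hd.Φ's.continuous
  have c5 : Continuous (deriv (deriv d.Φ)) := hd.Φ''s.continuous
  have e : OmR q d = UR q d (r0q q) ∩
      ({z | deriv d.Φ (d.u0 z) < deriv (deriv d.Φ) (d.u0 z)} ∩
        {z | q.nm * Real.exp (d.u0 z) < 2 * deriv d.Φ (d.u0 z)}) := rfl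
  rw [e]
  exact hU.inter ((isOpen_lt (c4.comp c3) (c5.comp c3)).inter
    (isOpen_lt (continuous_const.mul (Real.continuous_exp.comp c3))
      (continuous_const.mul (c4.comp c3))))

/-- The numerical conditions (besides those of the certificate). -/
structure NmR (n : ℕ) (q : Cst) : Prop where
  e0 : 0 < q.e₁
  nm2 : 2 ≤ q.nm
  nmS : ∀ τ ∈ Icc 0 (r0q q ^ 2), 20 * Ph1 2 Li q.e₁ rp dp τ * r0q q ^ 2 ≤ q.nm
  e1 : q.e₁ ≤ 1
  κ0 : 0 < q.κ₁
  σ0 : 0 < q.σ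
  σ1 : q.σ ≤ 1 / 5000
  L2 : 2 ≤ q.L
  M1 : 1 ≤ q.M₀
  R1 : 6 ≤ q.R
  rad : H509.Rad.Ok q.e₁ rp
  nr : 300 * n * r0q q ≤ q.R
  rd : r0q q ^ 2 < (q.r₁ * Real.exp (-1)) ^ 2

theorem pp_prof (h : NmR n q) : PP 2 Li q.e₁ rp dp := h.rad.pp

theorem NmR.tr (h : NmR n q) : H222.TR n (r0q q) q :=
  ⟨h.σ0, h.σ1, by linarith [h.R1], h.nr, h.rd⟩

/-- The support lies in the closed set. -/
theorem ch_SR (h : NmR n q) (hd : PkOk q d) (hP : (d.cp q).Ok) (hz : d.ch q .RSn z ≠ 0) :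
    z ∈ SR q d := by
  have hR : 0 < q.R := by linarith [h.R1]
  have hnm : 0 < q.nm := by linarith [h.nm2]
  have hN : 0 < d.N q z := hd.N_pos h.M1 _
  obtain ⟨h1, h2⟩ := H31.EP.sd_RS hz (Or.inl rfl) hnm hN
  have h3 := H31.EP.sd_RSn hz hP
  have h4 := (H31.EP.sd_fin hz (by simp [H867.EP.Inf]) h.κ0 h.σ0 hR).2.2
  exact ⟨h2.le, h1.le, h3, h4.le⟩

/-- The exponents `u`, `u0` are close. -/
theorem u_u0 (hd : PkOk q d) (z : VV n) : |d.u q z - d.u0 z| ≤ 1 / 4 := by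
  have h1 := hd.χb (H31.EP.r2 (H31.EP.gi d.s₁) z)
  have h2 := (d.μc_abs q (d.l (H464.Cu.mid z))).trans (hd.ph.μb _)
  have e : d.u q z - d.u0 z =
      2 * (d.χ (H31.EP.r2 (H31.EP.gi d.s₁) z) * d.μc q (d.l (H464.Cu.mid z))) := by
    show H31.EP.uu (d.F q) d.l (H31.EP.gi d.s₁) z - (d.l z.1 + d.l z.2) = _
    unfold H31.EP.uu
    show d.l z.1 + d.l z.2 + 2 * (d.χ _ * d.μc q _) - (d.l z.1 + d.l z.2) = _
    ring
  rw [e, abs_mul, abs_mul, abs_of_pos two_pos, abs_of_nonneg h1.1]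
  have h3 : d.χ (H31.EP.r2 (H31.EP.gi d.s₁) z) * |d.μc q (d.l (H464.Cu.mid z))| ≤ 1 * (1 / 8) :=
    mul_le_mul h1.2 h2 (abs_nonneg _) zero_le_one
  linarith

/-- The closed set lies in the neighbourhood. -/
theorem SR_sub (hn : 1 ≤ n) (h : NmR n q) (hd : PkOk q d)
    (hrq : ∀ z, 1 / 2 * H31.EP.qq z ≤ 2 * H464.Cu.rq (H31.EP.gi d.s₁) z) :
    SR q d ⊆ OmR q d := by
  rintro z ⟨h1, h2, h3, h4⟩
  have hR : 0 < q.R := by linarith [h.R1]
  have hp := H31.EP.prR_pos q.e₁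
  have hu := abs_le.1 (u_u0 hd z)
  have hU : z ∈ UR q d (r0q q) := by
    refine ⟨?_, ?_, ?_⟩
    · have h5 := (hrq z).trans h3
      show H31.EP.qq z < r0q q ^ 2
      unfold r0q
      nlinarith
    · show 2 * d.l₀ q + 43 / 20 * q.R < d.u0 z
      unfold Pk.uth at h1
      linarith [h.R1]
    · show d.u0 z < 2 * d.l₀ q + 5 * q.R
      linarith
  have he : d.u q z = d.u0 z :=
    ((H222.UR_eq hn hd (by linarith [r0q_ge q]) h.tr).2 z hU).2.2.2.2.1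
  rw [he] at h1 h2
  have hN : 0 < deriv d.Φ (d.u0 z) := hd.N_pos h.M1 _
  have hK : 2 * deriv d.Φ (d.u0 z) ≤ deriv (deriv d.Φ) (d.u0 z) := by
    have t := hd.top
    have hb : d.u0 z ≤ d.utb q := by
      unfold Pk.utb
      linarith
    rcases le_total (d.u0 z) (d.uta q) with h6 | h6
    · rw [t.x1 _ h1 h6]
    · rcases le_total (d.u0 z) (d.uta q + 1) with h7 | h7
      · exact (t.x2 _ h6 h7).1
      · rw [t.x3 _ h7 hb]
        exact mul_le_mul_of_nonneg_right h.L2 hN.le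
  exact ⟨hU, by linarith, by linarith⟩

/-! ## The facts in the region -/

/-- All facts at a point of the region. -/
structure FcR (n : ℕ) (q : Cst) (d : Pk n) (z : VV n) : Prop where
  qc : qq z < r0q q ^ 2
  lo1 : d.l₀ q + 21 / 20 * q.R < d.l z.1
  lo2 : d.l₀ q + 21 / 20 * q.R < d.l z.2
  lo3 : d.l₀ q + 21 / 20 * q.R < d.l (H464.Cu.mid z)
  up1 : d.l z.1 < d.l₀ q + 3 * q.R
  up2 : d.l z.2 < d.l₀ q + 3 * q.R
  up3 : d.l (H464.Cu.mid z) < d.l₀ q + 3 * q.R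
  uu : d.u q z = d.u0 z
  rr : d.r2 z = qq z
  s1 : d.s₁ z.1 = 1
  s2 : d.s₂ z.2 = 1
  W : d.W q z = Wm d.Φ (prS q.e₁) d.l z
  E : q.nm * Real.exp (d.u0 z) < 2 * deriv d.Φ (d.u0 z)
  K : deriv d.Φ (d.u0 z) < deriv (deriv d.Φ) (d.u0 z)
  KL : deriv (deriv d.Φ) (d.u0 z) ≤ (q.L + 1 / 20) * deriv d.Φ (d.u0 z)
  N : Real.exp (2 * q.R) ≤ deriv d.Φ (d.u0 z)

theorem facts (hn : 1 ≤ n) (h : NmR n q) (hd : PkOk q d) (hl0 : 0 ≤ d.l₀ q)
    (hz : z ∈ OmR q d) : FcR n q d z := by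
  obtain ⟨hU, h2, h3⟩ := hz
  have hR : 0 < q.R := by linarith [h.R1]
  have hr := r0q_ge q
  have hnr : (n : ℝ) * r0q q ≤ q.R / 300 := by
    have := h.nr
    linarith
  have hnr0 : 0 ≤ (n : ℝ) * r0q q := by positivity
  have hb : (2 * d.l₀ q + 5 * q.R) / 2 ≤ d.l₀ q + 3 * q.R := by linarith
  have hU' : z ∈ UT d.l (r0q q) (2 * d.l₀ q + 43 / 20 * q.R) (2 * d.l₀ q + 5 * q.R) := hU
  obtain ⟨l1, l2, l3⟩ := H222.UT_level hn hd h.σ0 h.σ1 hR (by linarith) hb (by linarith) hU'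
  obtain ⟨m1, m2, m3⟩ := H222.UT_level' hn hd h.σ0 h.σ1 hR (by linarith) hb (by linarith) hU'
  obtain ⟨f1, f2, f3, f4, f5, f6, f7, f8, f9, f10, f11⟩ :=
    (H222.UR_eq hn hd (by linarith) h.tr).2 z hU
  refine
    { qc := hU.1
      lo1 := by linarith
      lo2 := by linarith
      lo3 := by linarith
      up1 := by linarith
      up2 := by linarith
      up3 := by linarith
      uu := f5
      rr := f6
      s1 := f1.1
      s2 := f2.2
      W := f11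
      E := h3
      K := h2
      KL := hd.top.k2 _
      N := ?_ }
  have h5 : 43 / 20 * q.R < d.u0 z := by
    have : 2 * d.l₀ q + 43 / 20 * q.R < d.u0 z := hU.2.1
    linarith
  have h6 : Real.exp (2 * q.R) ≤ Real.exp (d.u0 z) := Real.exp_le_exp.2 (by linarith)
  have h7 := mul_le_mul_of_nonneg_right h.nm2 (Real.exp_pos (d.u0 z)).le
  linarith

end Vale.Agent.P088.R2.H312.S
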