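import Vale.Agent.P088.R2.H312.S.Geo

/-!
# P088, zone RSn: the zone theorem
-/

open Set Filter
open scoped ContDiff Topology

noncomputable section

namespace Vale.Agent.P088.R2.H312.S

open Vale.Agent.P088.LR Vale.Agent.P088.HY Vale.Agent.P088.R2.H961.GW Vale.Agent.P088.R2.H644
open Vale.Agent.P088.R2.H644.Ch Vale.Agent.P088.R2.H644.Sy
open Vale.Agent.P088.R2.H747.SW Vale.Agent.P088.R2.H960.W
open Vale.Agent.P088.R2.H31.EP (Cst Pk PkOk EvC prS prR rp dp Li NB_Cs LitSm ZoneThm)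
open Vale.Agent.P088.R2.H222 (UR UT W0)

variable {n : ℕ} {q : Cst} {d : Pk n} {z : VV n}

/-! ## Numbers -/

lemma num1 {E S₁ τ r N K S nm : ℝ} (hE : 0 < E) (h1 : 0 ≤ S₁) (hτ : τ ≤ r)
    (h : 20 * S₁ * r ≤ nm) (hE2 : nm * E < 2 * N) (hN : 0 ≤ N) (hK : N < K) (hS : 0 ≤ S) :
    2 * (E * S₁) * τ ≤ K + E * S := by
  have e1 : 2 * (E * S₁) * τ ≤ 2 * (E * S₁) * r :=
    mul_le_mul_of_nonneg_left hτ (by positivity)
  have e2 := mul_le_mul_of_nonneg_left h hE.le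
  have e3 : 0 ≤ E * S := by positivity
  nlinarith

lemma num2 {E S₁ τ r N a nm : ℝ} (hE : 0 < E) (h1 : 0 ≤ S₁) (hτ : τ ≤ r) (hr : 1 ≤ r)
    (h : 20 * S₁ * r ≤ nm) (hE2 : nm * E < 2 * N) (ha : N ≤ a) :
    (2 * (E * S₁)) ^ 2 * τ ≤ a ^ 2 / 20 := by
  have e1 : (2 * (E * S₁)) ^ 2 * τ ≤ (2 * (E * S₁)) ^ 2 * r :=
    mul_le_mul_of_nonneg_left hτ (by positivity)
  have e2 : (2 * (E * S₁)) ^ 2 * r ≤ (2 * (E * S₁)) ^ 2 * r ^ 2 :=
    mul_le_mul_of_nonneg_left (by nlinarith) (by positivity)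
  have e3 : 2 * (E * S₁) * r ≤ a / 5 := by
    have := mul_le_mul_of_nonneg_left h hE.le
    nlinarith
  have e4 : 0 ≤ 2 * (E * S₁) * r := by positivity
  have e5 := pow_le_pow_left₀ e4 e3 2
  nlinarith

lemma flow {ι : Type*} [Fintype ι] {p q : ι → ℝ} {a b : ℝ} (hp : 1 ≤ ∑ i, p i ^ 2)
    (hb : b ^ 2 * ∑ i, q i ^ 2 ≤ a ^ 2 / 20) : a ^ 2 / 4 ≤ ∑ i, (a * p i + b * q i) ^ 2 := by
  have h : ∑ i, (a ^ 2 / 2 * p i ^ 2 - b ^ 2 * q i ^ 2) ≤ ∑ i, (a * p i + b * q i) ^ 2 :=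
    Finset.sum_le_sum fun i _ => by nlinarith [sq_nonneg (a * p i + 2 * b * q i)]
  rw [Finset.sum_sub_distrib, ← Finset.mul_sum, ← Finset.mul_sum] at h
  have h2 := mul_le_mul_of_nonneg_left hp (by positivity : 0 ≤ a ^ 2 / 2)
  nlinarith [sq_nonneg a]

lemma fup {ι : Type*} [Fintype ι] {p q : ι → ℝ} {α a b c : ℝ} (hp : ∑ i, p i ^ 2 ≤ 2)
    (h0 : 0 ≤ α) (h1 : α ≤ c * a) (hb : b ^ 2 * ∑ i, q i ^ 2 ≤ a ^ 2 / 20) :
    ∑ i, (α * p i + b * q i) ^ 2 ≤ (4 * c ^ 2 + 1 / 10) * a ^ 2 := by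
  have h : ∑ i, (α * p i + b * q i) ^ 2 ≤ ∑ i, (2 * α ^ 2 * p i ^ 2 + 2 * (b ^ 2 * q i ^ 2)) :=
    Finset.sum_le_sum fun i _ => by nlinarith [sq_nonneg (α * p i - b * q i)]
  rw [Finset.sum_add_distrib, ← Finset.mul_sum, ← Finset.mul_sum, ← Finset.mul_sum] at h
  have h2 := mul_le_mul_of_nonneg_left hp (by positivity : 0 ≤ 2 * α ^ 2)
  have h3 := pow_le_pow_left₀ h0 h1 2
  nlinarith

lemma cs {ι : Type*} [Fintype ι] {f g : ι → ℝ} {F G : ℝ} (hf : ∑ i, f i ^ 2 ≤ F)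
    (hg : ∑ i, g i ^ 2 ≤ G) : |∑ i, f i * g i| ≤ (F + G) / 2 := by
  have h : |∑ i, f i * g i| ≤ ∑ i, (f i ^ 2 + g i ^ 2) / 2 :=
    (Finset.abs_sum_le_sum_abs _ _).trans (Finset.sum_le_sum fun i _ => by
      rw [abs_mul]
      nlinarith [sq_nonneg (|f i| - |g i|), sq_abs (f i), sq_abs (g i)])
  rw [← Finset.sum_div, Finset.sum_add_distrib] at h
  linarith

/-! ## The letters -/

/-- The convexity weight of the margin. -/
def mRS (q : Cst) (d : Pk n) (z : VV n) : ℝ := q.σ / q.R * d.NG q z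

/-- The constant of the slot bounds. -/
def Cb (n : ℕ) (σ e₁ L : ℝ) (CL : ℕ → ℝ) : ℝ :=
  open Classical in
  if h : 1 ≤ n ∧ 0 < σ ∧ σ ≤ 1 / 5000 ∧ ContDiff ℝ ∞ (prS e₁) ∧ 0 ≤ L then
    (b0_fam h.1 h.2.1 h.2.2.1 h.2.2.2.1 ((2 * (prR e₁ + 1)) ^ 2) h.2.2.2.2 CL).choose else 0

/-- The constant of the slot bounds. -/
def Cq (n : ℕ) (q : Cst) : ℝ := Cb n q.σ q.e₁ (q.L + 1 / 20) q.phL.1

/-- The second constant. -/
def C2q (q : Cst) : ℝ := q.L + 3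

/-- The threshold. -/
def Tq (n : ℕ) (q : Cst) (t : ℝ) : ℝ :=
  800 / q.σ * (Cqf n n (Cq n q) ^ 2 * C2q q ^ 2 * n / (4 * q.σ) +
    Cqf n n (Cq n q) * (C2q q ^ 2 + C2q q)) * t ^ 2 +
    800 * (Cq n q * C2q q + 5 * C2q q ^ 2)

theorem sS (h : NmR n q) : ContDiff ℝ ∞ (prS q.e₁) := h.rad.pp.contDiff_Ph

theorem sS1 (h : NmR n q) : ContDiff ℝ ∞ (Ph1 2 Li q.e₁ rp dp) := by
  have e : deriv (Ph 2 Li q.e₁ rp dp) = Ph1 2 Li q.e₁ rp dp :=
    funext fun s => (h.rad.pp.d2_Ph.d1 s).deriv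
  rw [← e]
  exact (contDiff_infty_iff_deriv.1 h.rad.pp.contDiff_Ph).2

theorem W_sm (hd : PkOk q d) (hs : LitSm q d) : ContDiff ℝ ∞ (d.W q) :=
  H31.EP.WT_smooth hd.ok hd.Θs hd.ret.sm hd.l_sm hs.g

theorem NG_eq (q : Cst) (d : Pk n) : d.NG q = Wm (deriv d.Φ) (prS q.e₁) d.l := rfl

/-- **All slot quantities of the weight at the points of the region.** -/
theorem b0_pt (hn : 1 ≤ n) (h : NmR n q) (hd : PkOk q d) (hl0 : 0 ≤ d.l₀ q)
    (hO : IsOpen (OmR q d)) (hz : z ∈ OmR q d) :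
    B0 d.sx d.sy (d.W q) z (Cq n q) (deriv d.Φ (uu0 d.l z) + Real.exp (uu0 d.l z))
      (deriv (deriv d.Φ) (uu0 d.l z) + deriv d.Φ (uu0 d.l z) * q.R⁻¹ +
        Real.exp (uu0 d.l z)) 0 := by
  have hR : 0 < q.R := by linarith [h.R1]
  have hc : 1 ≤ n ∧ 0 < q.σ ∧ q.σ ≤ 1 / 5000 ∧ ContDiff ℝ ∞ (prS q.e₁) ∧ 0 ≤ q.L + 1 / 20 :=
    ⟨hn, h.σ0, h.σ1, sS h, by linarith [h.L2]⟩
  have e : Cq n q = (b0_fam hc.1 hc.2.1 hc.2.2.1 hc.2.2.2.1 ((2 * (prR q.e₁ + 1)) ^ 2)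
      hc.2.2.2.2 q.phL.1).choose := by
    unfold Cq Cb
    rw [dif_pos hc]
  have key := (b0_fam hc.1 hc.2.1 hc.2.2.1 hc.2.2.2.1 ((2 * (prR q.e₁ + 1)) ^ 2)
      hc.2.2.2.2 q.phL.1).choose_spec
  rw [← e] at key
  have hf : ∀ z ∈ OmR q d, FcR n q d z := fun z hz => facts hn h hd hl0 hz
  have cl : Continuous d.l := hd.l_sm.continuous
  have fl : ∀ x : V n, d.l₀ q + 21 / 20 * q.R < d.l x → d.s₁ x = 1 ∧ d.s₂ x = 1 :=
    fun x hx => H222.flat hn hd h.σ0 h.σ1 hR hx.le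
  have b : B0 (slx (fun _ => 1) d.s₁) (sly (fun _ => 1) d.s₂)
      (Wm d.Φ (prS q.e₁) (H475.levG n q.σ q.R d.kap d.Gs)) z (Cq n q)
      (deriv d.Φ (uu0 (H475.levG n q.σ q.R d.kap d.Gs) z) +
        Real.exp (uu0 (H475.levG n q.σ q.R d.kap d.Gs) z))
      (deriv (deriv d.Φ) (uu0 (H475.levG n q.σ q.R d.kap d.Gs) z) +
        deriv d.Φ (uu0 (H475.levG n q.σ q.R d.kap d.Gs) z) * q.R⁻¹ +
        Real.exp (uu0 (H475.levG n q.σ q.R d.kap d.Gs) z)) 0 := key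
    { Φ := d.Φ
      R := q.R
      kap := d.kap
      Gs := d.Gs
      s₁ := d.s₁
      s₂ := d.s₂
      O := {x | d.l₀ q + 21 / 20 * q.R < d.l x} ∩ {x | d.l x < d.l₀ q + 3 * q.R}
      Ω := OmR q d
      sm := hd.Φs
      n0 := fun t => (hd.N_pos h.M1 t).le
      k0 := fun t => (hd.top.k0 t).le
      kn := hd.top.k2
      kd := hd.top.kL
      R1 := by linarith [h.R1]
      oO := (isOpen_lt continuous_const cl).inter (isOpen_lt cl continuous_const)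
      oΩ := hO
      hx := fun z hz => ⟨(hf z hz).lo1, (hf z hz).up1⟩
      hy := fun z hz => ⟨(hf z hz).lo2, (hf z hz).up2⟩
      hm := fun z hz => ⟨(hf z hz).lo3, (hf z hz).up3⟩
      e1 := fun x hx => (fl x hx.1).1
      e2 := fun x hx => (fl x hx.1).2
      lv := fun x hx => by
        have h2 : d.l x < d.l₀ q + 3 * q.R := hx.2
        rw [hd.lev.lit] at h2
        have h3 : H475.levG n q.σ q.R d.kap d.Gs x < H475.lam0 q.R d.kap d.Gs + 3 * q.R := h2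
        linarith
      qc := fun z hz => (hf z hz).qc.le } z hz
  rw [← hd.lev.lit] at b
  exact b.congr hO (fun z hz => (hf z hz).W) hz

/-- The Hessian form depends only on the germ. -/
theorem TH_cg {Ω : Set (VV n)} {W W' : VV n → ℝ} (hΩ : IsOpen Ω) (e : ∀ z ∈ Ω, W z = W' z)
    (hW : Sm Ω W) (hW' : Sm Ω W') (hz : z ∈ Ω) (A B : V n) :
    TH (fx n) (fy n) W z A B = TH (fx n) (fy n) W' z A B := by
  rw [f_TH hΩ hW hz, f_TH hΩ hW' hz]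
  have h1 : ∀ l, ∀ z ∈ Ω, dx l W z = dx l W' z := fun l z hz => by
    have := D_congr (fx n) hΩ e l hz
    rwa [fx_D, fx_D] at this
  have h2 : ∀ l, ∀ z ∈ Ω, dy l W z = dy l W' z := fun l z hz => by
    have := D_congr (fy n) hΩ e l hz
    rwa [fy_D, fy_D] at this
  have h3 : ∀ i l, dx i (dx l W) z = dx i (dx l W') z := fun i l => by
    have := D_congr (fx n) hΩ (h1 l) i hz
    rwa [fx_D, fx_D] at this
  have h4 : ∀ i l, dx i (dy l W) z = dx i (dy l W') z := fun i l => by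
    have := D_congr (fx n) hΩ (h2 l) i hz
    rwa [fx_D, fx_D] at this
  have h5 : ∀ i l, dy i (dy l W) z = dy i (dy l W') z := fun i l => by
    have := D_congr (fy n) hΩ (h2 l) i hz
    rwa [fy_D, fy_D] at this
  simp only [h3, h4, h5]

theorem pd2_l (h : NmR n q) (hd : PkOk q d) {x : V n} (hx : d.l₀ q ≤ d.l x) (i j : Fin n) :
    pd i (pd j d.l) x = if i = j then q.σ / q.R else 0 := by
  have hR : 0 < q.R := by linarith [h.R1]
  rw [hd.lev.lit] at hx ⊢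
  exact pd2_flat h.σ0 h.σ1 hR hx i j

theorem pd_l (h : NmR n q) (hd : PkOk q d) {x : V n} (hx : d.l₀ q ≤ d.l x)
    (hx' : d.l x ≤ d.l₀ q + 5 * q.R) :
    1 ≤ ∑ i, pd i d.l x ^ 2 ∧ ∑ i, pd i d.l x ^ 2 ≤ 2 := by
  have hR : 0 < q.R := by linarith [h.R1]
  rw [hd.lev.lit] at hx hx' ⊢
  exact pd_flat h.σ0 h.σ1 hR hx hx'

/-- All pointwise estimates. -/
structure PtR (n : ℕ) (q : Cst) (d : Pk n) (z : VV n) : Prop where
  a : Real.exp (2 * q.R) ≤ d.NG q z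
  TH : ∀ A B : V n, mRS q d z * (∑ i, A i ^ 2 + ∑ i, B i ^ 2) ≤ TH d.sx d.sy (d.W q) z A B
  F₁ : d.NG q z ^ 2 / 4 ≤ d.sx.F (d.W q) z
  F₂ : d.NG q z ^ 2 / 4 ≤ d.sy.F (d.W q) z
  G₁ : |d.sx.Γ (mRS q d) (d.W q) z| ≤ q.σ / q.R * (5 * C2q q ^ 2 * d.NG q z ^ 2)
  G₂ : |d.sy.Γ (mRS q d) (d.W q) z| ≤ q.σ / q.R * (5 * C2q q ^ 2 * d.NG q z ^ 2)
  κ : deriv (deriv d.Φ) (uu0 d.l z) + deriv d.Φ (uu0 d.l z) * q.R⁻¹ + Real.exp (uu0 d.l z) ≤
    C2q q * d.NG q z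

theorem ptR (hn : 1 ≤ n) (h : NmR n q) (hd : PkOk q d) (hl0 : 0 ≤ d.l₀ q) (hs : LitSm q d)
    (hO : IsOpen (OmR q d)) (hz : z ∈ OmR q d) : PtR n q d z := by
  have hR : 0 < q.R := by linarith [h.R1]
  have hf : ∀ z ∈ OmR q d, FcR n q d z := fun z hz => facts hn h hd hl0 hz
  have f := hf z hz
  have hPP := h.rad.pp
  have hW := W_sm hd hs
  have sl := hd.l_sm
  set s := q.σ / q.R with hsd
  have s0 : 0 < s := div_pos h.σ0 hR
  -- the letters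
  have eu : d.u0 z = uu0 d.l z := rfl
  set E := Real.exp (uu0 d.l z) with hE
  set N := deriv d.Φ (uu0 d.l z) with hN
  set K := deriv (deriv d.Φ) (uu0 d.l z) with hK
  set S := prS q.e₁ (qq z) with hS
  set S₁ := Ph1 2 Li q.e₁ rp dp (qq z) with hS1
  have E0 : 0 < E := Real.exp_pos _
  have q0 : 0 ≤ qq z := qq_nonneg z
  have S0 : 0 ≤ S := H31.EP.PkOk.prS_nonneg h.rad q0
  have S10 : 0 ≤ S₁ := (hPP.Ph1_pos q0).le
  have S20 : 0 ≤ Ph2 2 Li q.e₁ rp dp (qq z) :=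
    Ph2_nonneg hPP h.e1 (by unfold rp; norm_num) q0
  have N0 : 0 < N := hd.N_pos h.M1 _
  have qc := f.qc
  have r0 := r0q_ge q
  have r1 : 1 ≤ r0q q ^ 2 := by nlinarith
  have nS : 20 * S₁ * r0q q ^ 2 ≤ q.nm := h.nmS _ ⟨q0, qc.le⟩
  have fE : q.nm * E < 2 * N := f.E
  have fK : N < K := f.K
  have fKL : K ≤ (q.L + 1 / 20) * N := f.KL
  have fN : Real.exp (2 * q.R) ≤ N := f.N
  have ea : d.NG q z = N + E * S := rfl
  have ES : 0 ≤ E * S := by positivity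
  have aN : N ≤ N + E * S := by linarith
  have b2 : (2 * (E * S₁)) ^ 2 * ∑ i, qv i z ^ 2 ≤ (N + E * S) ^ 2 / 20 := by
    rw [← qq_eq]
    exact num2 E0 S10 qc.le r1 nS fE aN
  have b2' : (-(2 * (E * S₁))) ^ 2 * ∑ i, qv i z ^ 2 ≤ (N + E * S) ^ 2 / 20 := by
    rw [neg_sq]
    exact b2
  obtain ⟨p1, p2⟩ := pd_l h hd (x := z.1) (by linarith [f.lo1]) (by linarith [f.up1])
  obtain ⟨p3, p4⟩ := pd_l h hd (x := z.2) (by linarith [f.lo2]) (by linarith [f.up2])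
  have hs1 : ∀ z ∈ OmR q d, d.s₁ z.1 = 1 := fun z hz => (hf z hz).s1
  have hs2 : ∀ z ∈ OmR q d, d.s₂ z.2 = 1 := fun z hz => (hf z hz).s2
  have dΦ : ∀ t, HasDerivAt d.Φ (deriv d.Φ t) t := fun t =>
    (hd.Φs.differentiable (by simp) t).hasDerivAt
  have dΦ1 : ∀ t, HasDerivAt (deriv d.Φ) (deriv (deriv d.Φ) t) t := fun t =>
    (hd.Φ's.differentiable (by simp) t).hasDerivAt
  have dS : ∀ t, HasDerivAt (prS q.e₁) (Ph1 2 Li q.e₁ rp dp t) t := hPP.d2_Ph.d1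
  -- first derivatives of `W` and `m`
  have dxW : ∀ i, dx i (d.W q) z = (N + E * S) * pd i d.l z.1 + 2 * (E * S₁) * qv i z := by
    intro i
    have := D_congr (fx n) hO (fun z hz => (hf z hz).W) i hz
    rw [fx_D, fx_D] at this
    rw [this, dx_Wm sl dΦ dS]
  have dyW : ∀ i, dy i (d.W q) z = (N + E * S) * pd i d.l z.2 + -(2 * (E * S₁)) * qv i z := by
    intro i
    have := D_congr (fy n) hO (fun z hz => (hf z hz).W) i hz
    rw [fy_D, fy_D] at this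
    rw [this, dy_Wm sl dΦ dS]
    ring
  have sNG : ContDiff ℝ ∞ (d.NG q) := hs.NG
  have dNG : DifferentiableAt ℝ (d.NG q) z := sNG.differentiable (by simp) z
  have dxm : ∀ i, dx i (mRS q d) z = s * ((K + E * S) * pd i d.l z.1 + 2 * (E * S₁) * qv i z) := by
    intro i
    have e : mRS q d = fun z => s * d.NG q z := rfl
    rw [e, dx_eq, dd_const_mul, ← dx_eq, NG_eq, dx_Wm sl dΦ1 dS]
  have dym : ∀ i, dy i (mRS q d) z =
      s * ((K + E * S) * pd i d.l z.2 + -(2 * (E * S₁)) * qv i z) := by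
    intro i
    have e : mRS q d = fun z => s * d.NG q z := rfl
    rw [e, dy_eq, dd_const_mul, ← dy_eq, NG_eq, dy_Wm sl dΦ1 dS]
    ring
  have α0 : 0 ≤ K + E * S := by linarith
  have α1 : K + E * S ≤ (q.L + 1) * (N + E * S) := by
    have := h.L2
    nlinarith
  have g1 := fup (p := fun i => pd i d.l z.1) (q := fun i => qv i z) (b := 2 * (E * S₁))
    p2 α0 α1 b2
  have g2 := fup (p := fun i => pd i d.l z.1) (q := fun i => qv i z) (b := 2 * (E * S₁))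
    (c := 1) p2 (by linarith : 0 ≤ N + E * S) (by linarith) b2
  have g3 := fup (p := fun i => pd i d.l z.2) (q := fun i => qv i z) (b := -(2 * (E * S₁)))
    p4 α0 α1 b2'
  have g4 := fup (p := fun i => pd i d.l z.2) (q := fun i => qv i z) (b := -(2 * (E * S₁)))
    (c := 1) p4 (by linarith : 0 ≤ N + E * S) (by linarith) b2'
  have c5 : ((4 * (q.L + 1) ^ 2 + 1 / 10) * (N + E * S) ^ 2 +
      (4 * 1 ^ 2 + 1 / 10) * (N + E * S) ^ 2) / 2 ≤ 5 * C2q q ^ 2 * (N + E * S) ^ 2 := by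
    have h1 : (4 * (q.L + 1) ^ 2 + 1 / 10 + (4 * 1 ^ 2 + 1 / 10)) / 2 ≤ 5 * C2q q ^ 2 := by
      unfold C2q
      nlinarith [h.L2]
    have := mul_le_mul_of_nonneg_right h1 (sq_nonneg (N + E * S))
    linarith
  refine ⟨?_, ?_, ?_, ?_, ?_, ?_, ?_⟩
  · rw [ea]
    linarith
  · intro A B
    show _ ≤ TH (slx (fun _ => 1) d.s₁) (sly (fun _ => 1) d.s₂) (d.W q) z A B
    rw [sxy_TH hO hs1 hs2 (hW.contDiffOn) hz A B, TH_cg hO (fun z hz => (hf z hz).W)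
      hW.contDiffOn (Wm_sm hd.Φs (sS h) sl).contDiffOn hz]
    have := TH_Wm (z := z) sl hd.Φs hd.Φ's dΦ dΦ1 (sS h) (sS1 h) hPP.d2_Ph
      (pd2_l h hd (x := z.1) (by linarith [f.lo1])) (pd2_l h hd (x := z.2) (by linarith [f.lo2]))
      S10 S20 (num1 E0 S10 qc.le nS fE N0.le fK S0) A B
    exact this
  · show _ ≤ (slx (fun _ => 1) d.s₁).Γ (d.W q) (d.W q) z
    rw [sx_Γ hs1 hz, ea]
    have := flow (p := fun i => pd i d.l z.1) (q := fun i => qv i z) p1 b2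
    refine this.trans (le_of_eq (Finset.sum_congr rfl fun i _ => ?_))
    rw [dxW]
    ring
  · show _ ≤ (sly (fun _ => 1) d.s₂).Γ (d.W q) (d.W q) z
    rw [sy_Γ hs2 hz, ea]
    have := flow (p := fun i => pd i d.l z.2) (q := fun i => qv i z) p3 b2'
    refine this.trans (le_of_eq (Finset.sum_congr rfl fun i _ => ?_))
    rw [dyW]
    ring
  · show |(slx (fun _ => 1) d.s₁).Γ (mRS q d) (d.W q) z| ≤ _
    rw [sx_Γ hs1 hz, ea]
    have e : ∑ i, dx i (mRS q d) z * dx i (d.W q) z =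
        s * ∑ i, ((K + E * S) * pd i d.l z.1 + 2 * (E * S₁) * qv i z) *
          ((N + E * S) * pd i d.l z.1 + 2 * (E * S₁) * qv i z) := by
      rw [Finset.mul_sum]
      refine Finset.sum_congr rfl fun i _ => ?_
      rw [dxW, dxm]
      ring
    rw [e, abs_mul, abs_of_pos s0]
    exact mul_le_mul_of_nonneg_left ((cs g1 g2).trans c5) s0.le
  · show |(sly (fun _ => 1) d.s₂).Γ (mRS q d) (d.W q) z| ≤ _
    rw [sy_Γ hs2 hz, ea]
    have e : ∑ i, dy i (mRS q d) z * dy i (d.W q) z =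
        s * ∑ i, ((K + E * S) * pd i d.l z.2 + -(2 * (E * S₁)) * qv i z) *
          ((N + E * S) * pd i d.l z.2 + -(2 * (E * S₁)) * qv i z) := by
      rw [Finset.mul_sum]
      refine Finset.sum_congr rfl fun i _ => ?_
      rw [dyW, dym]
      ring
    rw [e, abs_mul, abs_of_pos s0]
    exact mul_le_mul_of_nonneg_left ((cs g3 g4).trans c5) s0.le
  · rw [ea]
    unfold C2q
    have h1 : q.R⁻¹ ≤ 1 := inv_le_one_of_one_le₀ (by linarith [h.R1])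
    have h2 : N * q.R⁻¹ ≤ N * 1 := mul_le_mul_of_nonneg_left h1 N0.le
    have h3 : E ≤ N := by
      have := mul_le_mul_of_nonneg_right h.nm2 E0.le
      linarith
    have h4 : 0 ≤ (q.L + 3) * (E * S) := mul_nonneg (by linarith [h.L2]) ES
    have h5 : (q.L + 3) * (N + E * S) - ((q.L + 1 / 20) * N + N * 1 + N) =
        19 / 20 * N + (q.L + 3) * (E * S) := by ring
    linarith

end Vale.Agent.P088.R2.H312.S
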